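import Vale.Agent.Lib.P208.Defs

namespace Vale.Agent.Lib.P208

open Metric Set

section basic

variable {E : Type*} [PseudoMetricSpace E]

theorem EmbedsWith.mono_set {X Y : Set E} {k : ℕ} {D : ℝ} (h : EmbedsWith X k D) (hYX : Y ⊆ X) :
    EmbedsWith Y k D := by
  obtain ⟨f, a, ha, hf⟩ := h
  exact ⟨f, a, ha, fun x hx y hy => hf x (hYX hx) y (hYX hy)⟩

theorem EmbedsWith.mono_D {X : Set E} {k : ℕ} {D D' : ℝ} (h : EmbedsWith X k D) (hD : D ≤ D') :
    EmbedsWith X k D' := by
  obtain ⟨f, a, ha, hf⟩ := h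
  refine ⟨f, a, ha, fun x hx y hy => ⟨(hf x hx y hy).1, (hf x hx y hy).2.trans ?_⟩⟩
  have h1 : 0 ≤ a * dist x y := mul_nonneg ha.le dist_nonneg
  nlinarith

/-- transporting an embedding along a similarity -/
theorem EmbedsWith.of_similarity {E' : Type*} [PseudoMetricSpace E'] {X : Set E} {Y : Set E'}
    {k : ℕ} {D : ℝ} (h : EmbedsWith Y k D) (φ : E → E') (s : ℝ) (hs : 0 < s)
    (hφ : ∀ x y, dist (φ x) (φ y) = s * dist x y) (hXY : ∀ x ∈ X, φ x ∈ Y) :
    EmbedsWith X k D := by
  obtain ⟨f, a, ha, hf⟩ := h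
  refine ⟨fun x => f (φ x), a * s, mul_pos ha hs, fun x hx y hy => ?_⟩
  have h1 := hf (φ x) (hXY x hx) (φ y) (hXY y hy)
  rw [hφ] at h1
  constructor
  · calc a * s * dist x y = a * (s * dist x y) := by ring
      _ ≤ _ := h1.1
  · calc dist (f (φ x)) (f (φ y)) ≤ D * a * (s * dist x y) := h1.2
      _ = D * (a * s) * dist x y := by ring

/-- the image of a doubling set under a similarity is doubling with the same constant -/
theorem DoublingWith.image_similarity {E' : Type*} [PseudoMetricSpace E'] {X : Set E} {lam : ℕ}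
    (h : DoublingWith X lam) (φ : E → E') (s : ℝ) (hs : 0 < s)
    (hφ : ∀ x y, dist (φ x) (φ y) = s * dist x y) : DoublingWith (φ '' X) lam := by
  classical
  rintro _ ⟨x, hx, rfl⟩ r hr
  obtain ⟨C, hCX, hCcard, hcov⟩ := h x hx (r / s) (div_pos hr hs)
  refine ⟨C.image φ, ?_, (Finset.card_image_le).trans hCcard, ?_⟩
  · intro y hy
    rw [Finset.coe_image] at hy
    obtain ⟨c, hc, rfl⟩ := hy
    exact ⟨c, hCX hc, rfl⟩
  · rintro _ ⟨⟨z, hz, rfl⟩, hzr⟩
    rw [mem_closedBall, hφ] at hzr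
    have hz' : z ∈ X ∩ closedBall x (r / s) := by
      refine ⟨hz, ?_⟩
      rw [mem_closedBall, le_div_iff₀ hs]
      linarith [mul_comm s (dist z x)]
    have := hcov hz'
    simp only [mem_iUnion, exists_prop] at this ⊢
    obtain ⟨c, hc, hzc⟩ := this
    refine ⟨φ c, Finset.mem_image_of_mem φ hc, ?_⟩
    rw [mem_closedBall] at hzc ⊢
    rw [hφ]
    have : s * dist z c ≤ s * (r / s / 2) := mul_le_mul_of_nonneg_left hzc hs.le
    have e : s * (r / s / 2) = r / 2 := by field_simp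
    linarith

/-- a subset of a doubling set is doubling, with the square of the constant -/
theorem DoublingWith.subset {X S : Set E} {lam : ℕ} (h : DoublingWith X lam) (hSX : S ⊆ X) :
    DoublingWith S (lam * lam) := by
  classical
  intro x hx r hr
  obtain ⟨C1, hC1X, hC1card, hcov1⟩ := h x (hSX hx) r hr
  have h2 : ∀ c ∈ C1, ∃ C : Finset E, (C : Set E) ⊆ X ∧ C.card ≤ lam ∧
      X ∩ closedBall c (r / 2) ⊆ ⋃ c' ∈ C, closedBall c' (r / 2 / 2) :=
    fun c hc => h c (hC1X hc) (r / 2) (by linarith)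
  choose! C2 hC2X hC2card hcov2 using h2
  let T : Finset E := C1.biUnion C2
  have hTcard : T.card ≤ lam * lam := by
    refine (Finset.card_biUnion_le).trans ?_
    calc ∑ c ∈ C1, (C2 c).card ≤ ∑ _c ∈ C1, lam := Finset.sum_le_sum (fun c hc => hC2card c hc)
      _ = C1.card * lam := by rw [Finset.sum_const, smul_eq_mul]
      _ ≤ lam * lam := Nat.mul_le_mul_right lam hC1card
  let pick : E → E := fun c' =>
    if hne : (S ∩ closedBall c' (r / 2 / 2)).Nonempty then hne.choose else x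
  have hpickS : ∀ c', pick c' ∈ S := by
    intro c'
    simp only [pick]
    split_ifs with hne
    · exact hne.choose_spec.1
    · exact hx
  refine ⟨T.image pick, ?_, (Finset.card_image_le).trans hTcard, ?_⟩
  · intro y hy
    rw [Finset.coe_image] at hy
    obtain ⟨c', -, rfl⟩ := hy
    exact hpickS c'
  · rintro z ⟨hzS, hzr⟩
    have hz1 := hcov1 ⟨hSX hzS, hzr⟩
    simp only [mem_iUnion, exists_prop] at hz1
    obtain ⟨c, hc, hzc⟩ := hz1
    have hz2 := hcov2 c hc ⟨hSX hzS, hzc⟩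
    simp only [mem_iUnion, exists_prop] at hz2
    obtain ⟨c', hc', hzc'⟩ := hz2
    simp only [mem_iUnion, exists_prop]
    refine ⟨pick c', Finset.mem_image_of_mem pick (Finset.mem_biUnion.mpr ⟨c, hc, hc'⟩), ?_⟩
    have hne : (S ∩ closedBall c' (r / 2 / 2)).Nonempty := ⟨z, hzS, hzc'⟩
    have hp : pick c' ∈ closedBall c' (r / 2 / 2) := by
      simp only [pick]
      rw [dif_pos hne]
      exact hne.choose_spec.2
    rw [mem_closedBall] at hzc' hp ⊢
    calc dist z (pick c') ≤ dist z c' + dist c' (pick c') := dist_triangle _ _ _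
      _ = dist z c' + dist (pick c') c' := by rw [dist_comm c']
      _ ≤ r / 2 / 2 + r / 2 / 2 := add_le_add hzc' hp
      _ = r / 2 := by ring

theorem DoublingWith.mono {X : Set E} {lam lam' : ℕ} (h : DoublingWith X lam) (hl : lam ≤ lam') :
    DoublingWith X lam' := by
  intro x hx r hr
  obtain ⟨C, h1, h2, h3⟩ := h x hx r hr
  exact ⟨C, h1, h2.trans hl, h3⟩

end basic

end Vale.Agent.Lib.P208
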