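import Vale.Agent.Lib.P208.Glue

namespace Vale.Agent.Lib.P208

open Metric Set

/-- compactness: if all finite subsets embed with the same dimension and distortion, so does the set -/
theorem embeds_of_finite {E : Type*} [PseudoMetricSpace E] (X : Set E) (k : ℕ) (D : ℝ)
    (h : ∀ F : Finset E, (F : Set E) ⊆ X → EmbedsWith (F : Set E) k D) : EmbedsWith X k D := by
  classical
  rcases X.eq_empty_or_nonempty with hX | ⟨x0, hx0⟩
  · exact ⟨fun _ => 0, 1, one_pos, fun x hx => by rw [hX] at hx; exact absurd hx (notMem_empty x)⟩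
  let V := EuclideanSpace ℝ (Fin k)
  let K : Set (E → V) := Set.pi univ (fun x => closedBall (0 : V) (|D| * dist x x0))
  have hK : IsCompact K := isCompact_univ_pi (fun x => isCompact_closedBall _ _)
  let ι := {F : Finset E // (F : Set E) ⊆ X}
  let t : ι → Set (E → V) := fun F =>
    {g | ∀ x ∈ F.1, ∀ y ∈ F.1, dist x y ≤ dist (g x) (g y) ∧ dist (g x) (g y) ≤ D * dist x y}
  have htc : ∀ F : ι, IsClosed (t F) := by
    intro F
    have : t F = ⋂ x ∈ F.1, ⋂ y ∈ F.1,
        ({g : E → V | dist x y ≤ dist (g x) (g y)} ∩ {g : E → V | dist (g x) (g y) ≤ D * dist x y}) := by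
      ext g
      simp only [t, mem_ofPred_eq, mem_iInter, mem_inter_iff]
    rw [this]
    refine isClosed_biInter (fun x _ => isClosed_biInter (fun y _ => IsClosed.inter ?_ ?_))
    · exact isClosed_le continuous_const ((continuous_apply x).dist (continuous_apply y))
    · exact isClosed_le ((continuous_apply x).dist (continuous_apply y)) continuous_const
  have hfin : ∀ u : Finset ι, (K ∩ ⋂ F ∈ u, t F).Nonempty := by
    intro u
    let Fs : Finset E := insert x0 (u.biUnion (fun F => F.1))
    have hFs : (Fs : Set E) ⊆ X := by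
      intro x hx
      rw [Finset.mem_coe, Finset.mem_insert, Finset.mem_biUnion] at hx
      rcases hx with hx | ⟨F, -, hxF⟩
      · rw [hx]; exact hx0
      · exact F.2 hxF
    obtain ⟨f, a, ha, hf⟩ := h Fs hFs
    have hx0Fs : x0 ∈ (Fs : Set E) := by simp [Fs]
    let g : E → V := fun x => if x ∈ Fs then a⁻¹ • (f x - f x0) else 0
    have hg : ∀ x ∈ Fs, ∀ y ∈ Fs, dist (g x) (g y) = a⁻¹ * dist (f x) (f y) := by
      intro x hx y hy
      simp only [g, if_pos hx, if_pos hy]
      rw [dist_smul₀, dist_sub_right, Real.norm_eq_abs, abs_of_pos (inv_pos.mpr ha)]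
    refine ⟨g, ?_, ?_⟩
    · intro x _
      rw [mem_closedBall, dist_zero_right]
      by_cases hx : x ∈ Fs
      · have h1 := (hf x hx x0 hx0Fs).2
        simp only [g, if_pos hx]
        rw [norm_smul, Real.norm_eq_abs, abs_of_pos (inv_pos.mpr ha), ← dist_eq_norm]
        have h2 : a⁻¹ * dist (f x) (f x0) ≤ a⁻¹ * (D * a * dist x x0) :=
          mul_le_mul_of_nonneg_left h1 (inv_pos.mpr ha).le
        have h3 : a⁻¹ * (D * a * dist x x0) = D * dist x x0 := by
          field_simp
        have h4 : D * dist x x0 ≤ |D| * dist x x0 :=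
          mul_le_mul_of_nonneg_right (le_abs_self D) dist_nonneg
        linarith
      · simp only [g, if_neg hx, norm_zero]
        exact mul_nonneg (abs_nonneg D) dist_nonneg
    · rw [mem_iInter₂]
      intro F hF x hx y hy
      have hxFs : x ∈ Fs := Finset.mem_insert_of_mem (Finset.mem_biUnion.mpr ⟨F, hF, hx⟩)
      have hyFs : y ∈ Fs := Finset.mem_insert_of_mem (Finset.mem_biUnion.mpr ⟨F, hF, hy⟩)
      have h1 := hf x hxFs y hyFs
      rw [hg x hxFs y hyFs]
      constructor
      · have h2 : a⁻¹ * (a * dist x y) ≤ a⁻¹ * dist (f x) (f y) :=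
          mul_le_mul_of_nonneg_left h1.1 (inv_pos.mpr ha).le
        have h3 : a⁻¹ * (a * dist x y) = dist x y := by field_simp
        linarith
      · have h2 : a⁻¹ * dist (f x) (f y) ≤ a⁻¹ * (D * a * dist x y) :=
          mul_le_mul_of_nonneg_left h1.2 (inv_pos.mpr ha).le
        have h3 : a⁻¹ * (D * a * dist x y) = D * dist x y := by field_simp
        linarith
  obtain ⟨g, -, hg⟩ := hK.inter_iInter_nonempty t htc hfin
  rw [mem_iInter] at hg
  refine ⟨g, 1, one_pos, fun x hx y hy => ?_⟩
  have hF : (({x, y} : Finset E) : Set E) ⊆ X := by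
    intro z hz
    rw [Finset.coe_insert, Finset.coe_singleton] at hz
    rcases hz with hz | hz
    · rw [hz]; exact hx
    · rw [mem_singleton_iff] at hz; rw [hz]; exact hy
  have h1 := hg ⟨{x, y}, hF⟩ x (by simp) y (by simp)
  rw [one_mul, mul_one]
  exact h1

/-- If every doubling subset of a nontrivial real normed space `E` embeds bi-Lipschitzly into
some Euclidean space, then the dimension and the distortion can be bounded in terms of the
doubling constant alone. -/
theorem uniform_of_qualitative {E : Type*} [NormedAddCommGroup E] [NormedSpace ℝ E] [Nontrivial E]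
    (H : ∀ X : Set E, (∃ lam, DoublingWith X lam) → ∃ (k : ℕ) (D : ℝ), EmbedsWith X k D)
    (lam : ℕ) :
    ∃ (k : ℕ) (D : ℝ), ∀ X : Set E, DoublingWith X lam → EmbedsWith X k D := by
  obtain ⟨k, D, h⟩ := bounded_case H (lam * lam)
  exact ⟨k, D, fun X hX => embeds_of_finite X k D
    (fun F hF => h F F.finite_toSet.isBounded (hX.subset hF))⟩

end Vale.Agent.Lib.P208
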