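import Mathlib

namespace Vale.Agent.Lib.P208

/-- `X` is doubling with constant at most `lam`: every closed ball of `X` (centre in `X`,
positive radius) is covered by at most `lam` closed balls of half the radius with centres in `X`. -/
def DoublingWith {E : Type*} [PseudoMetricSpace E] (X : Set E) (lam : ℕ) : Prop :=
  ∀ x ∈ X, ∀ r : ℝ, 0 < r → ∃ C : Finset E, (C : Set E) ⊆ X ∧ C.card ≤ lam ∧
    X ∩ Metric.closedBall x r ⊆ ⋃ c ∈ C, Metric.closedBall c (r / 2)

/-- `X` admits a bi-Lipschitz embedding into `ℝ^k` (Euclidean norm) with distortion at most `D`: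
for some scale `a > 0`, `a * d(x,y) ≤ |f x - f y| ≤ D * a * d(x,y)` for all `x, y` in `X`. -/
def EmbedsWith {E : Type*} [PseudoMetricSpace E] (X : Set E) (k : ℕ) (D : ℝ) : Prop :=
  ∃ (f : E → EuclideanSpace ℝ (Fin k)) (a : ℝ), 0 < a ∧ ∀ x ∈ X, ∀ y ∈ X,
    a * dist x y ≤ dist (f x) (f y) ∧ dist (f x) (f y) ≤ D * a * dist x y

end Vale.Agent.Lib.P208
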