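import Vale.Agent.Lib.P208.Basic

namespace Vale.Agent.Lib.P208

open Metric Set

section glue

variable {E : Type*} [NormedAddCommGroup E] [NormedSpace ℝ E]

/-- the scales of the pieces -/
noncomputable def rho (m : ℕ) : ℝ := (1 / 16 : ℝ) ^ m

theorem rho_pos (m : ℕ) : 0 < rho m := by
  unfold rho; positivity

theorem rho_succ (m : ℕ) : rho (m + 1) = rho m / 16 := by
  unfold rho; rw [pow_succ]; ring

theorem rho_anti {m m' : ℕ} (h : m ≤ m') : rho m' ≤ rho m := by
  induction h with
  | refl => exact le_rfl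
  | @step k _ ih =>
    rw [rho_succ]
    have := rho_pos k
    linarith

theorem rho_lt {m m' : ℕ} (h : m < m') : rho m' ≤ rho m / 16 := by
  have h1 : rho m' ≤ rho (m + 1) := rho_anti h
  rw [rho_succ] at h1
  exact h1

/-- the glued set: the origin together with all the pieces -/
def glued (Z : ℕ → Set E) : Set E := insert 0 (⋃ m, Z m)

theorem piece_norm (u : E) (hu : ‖u‖ = 1) (Z : ℕ → Set E)
    (hZ : ∀ m, ∀ z ∈ Z m, ‖z - rho m • u‖ ≤ rho m / 64) (m : ℕ) (z : E) (hz : z ∈ Z m) :
    63 / 64 * rho m ≤ ‖z‖ ∧ ‖z‖ ≤ 65 / 64 * rho m := by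
  have h1 := hZ m z hz
  have h2 : ‖rho m • u‖ = rho m := by
    rw [norm_smul, hu, mul_one, Real.norm_eq_abs, abs_of_pos (rho_pos m)]
  have h3 := norm_sub_norm_le z (rho m • u)
  have h4 := norm_sub_norm_le (rho m • u) z
  rw [norm_sub_rev] at h4
  constructor <;> linarith

theorem piece_sep (u : E) (hu : ‖u‖ = 1) (Z : ℕ → Set E)
    (hZ : ∀ m, ∀ z ∈ Z m, ‖z - rho m • u‖ ≤ rho m / 64) {m m' : ℕ} (h : m < m') (z z' : E)
    (hz : z ∈ Z m) (hz' : z' ∈ Z m') : rho m / 2 < dist z z' := by
  have h1 := piece_norm u hu Z hZ m z hz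
  have h2 := piece_norm u hu Z hZ m' z' hz'
  have h3 := rho_lt h
  have h4 := rho_pos m
  have h5 := norm_sub_norm_le z z'
  rw [dist_eq_norm]
  linarith

theorem piece_same (u : E) (Z : ℕ → Set E)
    (hZ : ∀ m, ∀ z ∈ Z m, ‖z - rho m • u‖ ≤ rho m / 64) (m : ℕ) (z z' : E)
    (hz : z ∈ Z m) (hz' : z' ∈ Z m) : dist z z' ≤ rho m / 32 := by
  have h1 := hZ m z hz
  have h2 := hZ m z' hz'
  have h3 := dist_triangle z (rho m • u) z'
  rw [dist_eq_norm, dist_eq_norm, dist_eq_norm, norm_sub_rev (rho m • u) z'] at h3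
  rw [dist_eq_norm]
  linarith

theorem glued_doubling (u : E) (hu : ‖u‖ = 1) (Z : ℕ → Set E) (lam : ℕ)
    (hZ : ∀ m, ∀ z ∈ Z m, ‖z - rho m • u‖ ≤ rho m / 64)
    (hd : ∀ m, DoublingWith (Z m) lam) : DoublingWith (glued Z) (max lam 2) := by
  classical
  intro y hy r hr
  have hsub : ∀ m, Z m ⊆ glued Z := fun m z hz =>
    mem_insert_of_mem _ (mem_iUnion.mpr ⟨m, hz⟩)
  by_cases hcase : ∃ m, y ∈ Z m ∧ r < rho m / 2
  · obtain ⟨m, hym, hrm⟩ := hcase
    obtain ⟨C, hC, hcard, hcov⟩ := hd m y hym r hr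
    refine ⟨C, hC.trans (hsub m), hcard.trans (le_max_left _ _), ?_⟩
    rintro z ⟨hzY, hzr⟩
    apply hcov
    refine ⟨?_, hzr⟩
    rw [mem_closedBall] at hzr
    rcases hzY with hz0 | hzU
    · exfalso
      rw [hz0, dist_comm, dist_zero_right] at hzr
      have := (piece_norm u hu Z hZ m y hym).1
      have := rho_pos m
      linarith
    · obtain ⟨m', hzm'⟩ := mem_iUnion.mp hzU
      rcases lt_trichotomy m' m with hlt | heq | hgt
      · exfalso
        have h1 := piece_sep u hu Z hZ hlt z y hzm' hym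
        have h2 := rho_anti hlt.le
        linarith
      · rw [heq] at hzm'; exact hzm'
      · exfalso
        have h1 := piece_sep u hu Z hZ hgt y z hym hzm'
        rw [dist_comm] at h1
        linarith
  · simp only [not_exists, not_and, not_lt] at hcase
    have hynorm : ‖y‖ ≤ 65 / 32 * r := by
      rcases hy with hy0 | hyU
      · rw [hy0, norm_zero]; positivity
      · obtain ⟨m, hym⟩ := mem_iUnion.mp hyU
        have h1 := (piece_norm u hu Z hZ m y hym).2
        have h2 := hcase m hym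
        linarith
    have hznorm : ∀ z ∈ closedBall y r, ‖z‖ ≤ 97 / 32 * r := by
      intro z hz
      rw [mem_closedBall, dist_eq_norm] at hz
      have := norm_sub_norm_le z y
      linarith
    by_cases h2 : ∃ z0 ∈ glued Z ∩ closedBall y r, r / 2 < ‖z0‖
    · obtain ⟨z0, ⟨hz0Y, hz0r⟩, hz0n⟩ := h2
      have hz0ne : z0 ≠ 0 := by
        intro h0
        rw [h0, norm_zero] at hz0n
        linarith
      have hz0U : z0 ∈ ⋃ m, Z m := by
        rcases hz0Y with h | h
        · exact absurd h hz0ne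
        · exact h
      obtain ⟨m0, hz0m⟩ := mem_iUnion.mp hz0U
      have hn0 := piece_norm u hu Z hZ m0 z0 hz0m
      have hz0b := hznorm z0 hz0r
      refine ⟨{0, z0}, ?_, ?_, ?_⟩
      · intro w hw
        rw [Finset.coe_insert, Finset.coe_singleton] at hw
        rcases hw with hw | hw
        · rw [hw]; exact mem_insert _ _
        · rw [mem_singleton_iff] at hw; rw [hw]; exact hz0Y
      · exact (Finset.card_le_two).trans (le_max_right _ _)
      · rintro z ⟨hzY, hzr⟩
        simp only [Finset.mem_insert, Finset.mem_singleton, iUnion_iUnion_eq_or_left,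
          iUnion_iUnion_eq_left, mem_union, mem_closedBall, dist_zero_right]
        by_cases hzn : ‖z‖ ≤ r / 2
        · exact Or.inl hzn
        · right
          rw [not_le] at hzn
          have hzne : z ≠ 0 := by
            intro h0
            rw [h0, norm_zero] at hzn
            linarith
          have hzU : z ∈ ⋃ m, Z m := by
            rcases hzY with h | h
            · exact absurd h hzne
            · exact h
          obtain ⟨m', hzm'⟩ := mem_iUnion.mp hzU
          have hn := piece_norm u hu Z hZ m' z hzm'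
          have hzb := hznorm z hzr
          have hmm : m' = m0 := by
            rcases lt_trichotomy m' m0 with hlt | heq | hgt
            · exfalso
              have := rho_lt hlt
              linarith
            · exact heq
            · exfalso
              have := rho_lt hgt
              linarith
          rw [hmm] at hzm'
          have := piece_same u Z hZ m0 z z0 hzm' hz0m
          linarith
    · simp only [not_exists, not_and, not_lt] at h2
      refine ⟨{0}, ?_, ?_, ?_⟩
      · intro w hw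
        rw [Finset.coe_singleton, mem_singleton_iff] at hw
        rw [hw]; exact mem_insert _ _
      · rw [Finset.card_singleton]
        exact le_trans (by norm_num) (le_max_right _ _)
      · rintro z hz
        simp only [Finset.mem_singleton, iUnion_iUnion_eq_left, mem_closedBall, dist_zero_right]
        exact h2 z hz

/-- bounded uniformly doubling sets can be glued, by similarities, into one doubling set -/
theorem exists_glued (u : E) (hu : ‖u‖ = 1) (X : ℕ → Set E) (lam : ℕ)
    (hb : ∀ m, Bornology.IsBounded (X m)) (hd : ∀ m, DoublingWith (X m) lam) :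
    ∃ Y : Set E, DoublingWith Y (max lam 2) ∧
      ∀ m, ∃ (φ : E → E) (s : ℝ), 0 < s ∧ (∀ x y, dist (φ x) (φ y) = s * dist x y) ∧
        ∀ x ∈ X m, φ x ∈ Y := by
  have hR : ∀ m, ∃ R : ℝ, 0 < R ∧ ∀ x ∈ X m, ‖x‖ ≤ R := by
    intro m
    obtain ⟨C, hC⟩ := isBounded_iff_forall_norm_le.mp (hb m)
    exact ⟨max C 1, lt_of_lt_of_le one_pos (le_max_right _ _),
      fun x hx => (hC x hx).trans (le_max_left _ _)⟩
  choose R hRpos hRb using hR
  let s : ℕ → ℝ := fun m => rho m / (64 * R m)
  have hs : ∀ m, 0 < s m := fun m => div_pos (rho_pos m) (by have := hRpos m; positivity)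
  let φ : ℕ → E → E := fun m x => rho m • u + s m • x
  have hφ : ∀ m x y, dist (φ m x) (φ m y) = s m * dist x y := by
    intro m x y
    simp only [φ]
    rw [dist_add_left, dist_smul₀, Real.norm_eq_abs, abs_of_pos (hs m)]
  let Z : ℕ → Set E := fun m => φ m '' X m
  have hZ : ∀ m, ∀ z ∈ Z m, ‖z - rho m • u‖ ≤ rho m / 64 := by
    rintro m _ ⟨x, hx, rfl⟩
    simp only [φ]
    rw [add_sub_cancel_left, norm_smul, Real.norm_eq_abs, abs_of_pos (hs m)]
    have h1 := hRb m x hx
    have h2 : s m * ‖x‖ ≤ s m * R m := mul_le_mul_of_nonneg_left h1 (hs m).le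
    have h3 : s m * R m = rho m / 64 := by
      simp only [s]
      have := hRpos m
      field_simp
    linarith
  refine ⟨glued Z, glued_doubling u hu Z lam hZ
    (fun m => (hd m).image_similarity (φ m) (s m) (hs m) (hφ m)), ?_⟩
  intro m
  exact ⟨φ m, s m, hs m, hφ m, fun x hx =>
    mem_insert_of_mem _ (mem_iUnion.mpr ⟨m, ⟨x, hx, rfl⟩⟩)⟩

/-- if every doubling subset embeds, then bounded subsets embed with uniform bounds -/
theorem bounded_case [Nontrivial E]
    (H : ∀ X : Set E, (∃ lam, DoublingWith X lam) → ∃ (k : ℕ) (D : ℝ), EmbedsWith X k D)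
    (lam : ℕ) :
    ∃ (k : ℕ) (D : ℝ), ∀ X : Set E, Bornology.IsBounded X → DoublingWith X lam →
      EmbedsWith X k D := by
  by_contra hneg
  simp only [not_exists, not_forall] at hneg
  choose Xbad hbad1 hbad2 hbad3 using hneg
  obtain ⟨u, hu⟩ := exists_norm_eq E (zero_le_one' ℝ)
  let X : ℕ → Set E := fun m => Xbad (Nat.unpair m).1 ((Nat.unpair m).2 : ℝ)
  obtain ⟨Y, hY, hφ⟩ := exists_glued u hu X lam (fun m => hbad1 _ _) (fun m => hbad2 _ _)
  obtain ⟨k, D, hemb⟩ := H Y ⟨_, hY⟩
  have hemb' : EmbedsWith Y k ((⌈D⌉₊ : ℕ) : ℝ) := hemb.mono_D (Nat.le_ceil D)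
  obtain ⟨φ, s, hs, hφ1, hφ2⟩ := hφ (Nat.pair k ⌈D⌉₊)
  have h1 : EmbedsWith (X (Nat.pair k ⌈D⌉₊)) k ((⌈D⌉₊ : ℕ) : ℝ) :=
    hemb'.of_similarity φ s hs hφ1 hφ2
  have h2 : X (Nat.pair k ⌈D⌉₊) = Xbad k ((⌈D⌉₊ : ℕ) : ℝ) := by
    simp only [X, Nat.unpair_pair]
  rw [h2] at h1
  exact hbad3 k _ h1

end glue

end Vale.Agent.Lib.P208
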