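import Vale.Agent.Lib.P208.Compact

namespace Vale.Agent.Lib.P208

open Metric Set

theorem lp_two_nontrivial : Nontrivial (lp (fun _ : ℕ => ℝ) 2) := by
  refine ⟨⟨lp.single 2 (0 : ℕ) (1 : ℝ), 0, ?_⟩⟩
  intro h
  have h1 : ‖lp.single (E := fun _ : ℕ => ℝ) 2 (0 : ℕ) (1 : ℝ)‖ = ‖(1 : ℝ)‖ :=
    lp.norm_single (by norm_num) 0 1
  rw [h, norm_zero, norm_one] at h1
  exact zero_ne_one h1

/-- qualitative and quantitative forms of the Lang-Plaut problem are equivalent -/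
theorem lang_plaut_uniform_iff :
    (∀ X : Set (lp (fun _ : ℕ => ℝ) 2), (∃ lam : ℕ, DoublingWith X lam) →
        ∃ (k : ℕ) (D : ℝ), EmbedsWith X k D) ↔
    ∀ lam : ℕ, ∃ (k : ℕ) (D : ℝ), ∀ X : Set (lp (fun _ : ℕ => ℝ) 2),
        DoublingWith X lam → EmbedsWith X k D := by
  haveI := lp_two_nontrivial
  constructor
  · intro H lam
    exact uniform_of_qualitative H lam
  · rintro H X ⟨lam, hX⟩
    obtain ⟨k, D, h⟩ := H lam
    exact ⟨k, D, h X hX⟩

/-- the Lang-Plaut problem is equivalent to a uniform statement about finite subsets -/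
theorem lang_plaut_finite_iff :
    (∀ X : Set (lp (fun _ : ℕ => ℝ) 2), (∃ lam : ℕ, DoublingWith X lam) →
        ∃ (k : ℕ) (D : ℝ), EmbedsWith X k D) ↔
    ∀ lam : ℕ, ∃ (k : ℕ) (D : ℝ), ∀ F : Finset (lp (fun _ : ℕ => ℝ) 2),
        DoublingWith (F : Set (lp (fun _ : ℕ => ℝ) 2)) lam →
        EmbedsWith (F : Set (lp (fun _ : ℕ => ℝ) 2)) k D := by
  haveI := lp_two_nontrivial
  constructor
  · intro H lam
    obtain ⟨k, D, h⟩ := uniform_of_qualitative H lam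
    exact ⟨k, D, fun F hF => h F hF⟩
  · rintro H X ⟨lam, hX⟩
    obtain ⟨k, D, h⟩ := H (lam * lam)
    exact ⟨k, D, embeds_of_finite X k D (fun F hF => h F (hX.subset hF))⟩

end Vale.Agent.Lib.P208
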